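import Mathlib
import Vale.Agent.Lib.P344.Defs
import Vale.Agent.Lib.P344.Add

namespace Vale.Agent.Results.P344.A_ThreeNBound

open Vale.Agent.Lib.P344

/-- Every linear circuit (gates `u + v`, `u - v`, `c * u` with arbitrary complex `c`, reading the
inputs, the constant `0` and earlier gates) whose designated outputs compute the unnormalized
discrete Fourier transform `F_n x` for every `x` has at least `3 n - 2 - d(n)` gates, where
`d(n)` is the number of divisors of `n`. -/
theorem result (n : ℕ) (hn : 2 ≤ n) (C : List Gate) (out : Fin n → ℕ)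
    (hC : ∀ x : Fin n → ℂ, ∀ j : Fin n,
      (eval C x).getD (out j) 0
        = ∑ k : Fin n, Complex.exp (2 * Real.pi * Complex.I / n) ^ ((j : ℕ) * (k : ℕ)) * x k) :
    3 * n ≤ C.length + (Nat.divisors n).card + 2 :=
  gate_count_bound n hn C out hC

end Vale.Agent.Results.P344.A_ThreeNBound
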